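import Vale.Agent.P113.Main

/-! Halting detection by particle trajectories of forced Navier-Stokes flows from rest. -/

namespace Vale.Agent.Results.P113.HaltingFlow

open Vale.Agent.P113

/-- For every computable viscosity `ν > 0` there are a point `a` of the torus, an open subset `O` of
the torus and a force compiler such that for every machine `M` and every input `w` the forced
Navier-Stokes system from rest has a global smooth solution, unique among classical solutions on
each `[0,T]`, whose trajectory from `a` lies in `O` at some time `t ≥ 0` iff `M` halts on `w`. -/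
theorem result : ∀ ν : ℝ, 0 < ν → IsComputableReal ν →
    ∃ (a : R3) (O : Set R3) (comp : Machine × List ℕ → Nat.Partrec.Code)
      (f : Machine → List ℕ → ℝ → R3 → R3),
      IsOpenTorusSet O ∧ IsForceCompiler comp f ∧
      ∀ (M : Machine) (w : List ℕ), ∃ (u : ℝ → R3 → R3) (p : ℝ → R3 → ℝ),
        IsUniqueGlobalSmoothSolution ν (f M w) u p ∧ (∃ X, IsTrajectory u a X) ∧
        ∀ X, IsTrajectory u a X → ((∃ t, 0 ≤ t ∧ X t ∈ O) ↔ Halts M w) :=
  main

end Vale.Agent.Results.P113.HaltingFlow
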